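import Vale.Agent.P252.Cert.ZeroCheck
import Vale.Agent.P252.Rigidity.General.Cert4.Struct
import Vale.Agent.P252.Rigidity.General.Cert4.Flat.MI0

/-! The stored block equals the structured one, checked at Kronecker points. -/

namespace Vale.Agent.P252.General.Cert4

open Vale.Agent.P100T.PosCheck Vale.Agent.P252.PolyPSD

theorem entryI0_1 : ((List.finRange 9).all fun l =>
    zeroCheck (gap (SI0 1 l) (MI0 1 l) (wt0 1 + wt0 l))) = true := by decide +kernel

end Vale.Agent.P252.General.Cert4
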