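import Vale.Agent.P252.Cert.ZeroCheck
import Vale.Agent.P252.Rigidity.General.Cert4.Struct
import Vale.Agent.P252.Rigidity.General.Cert4.Flat.MI1

/-! The stored block equals the structured one, checked at Kronecker points. -/

namespace Vale.Agent.P252.General.Cert4

open Vale.Agent.P100T.PosCheck Vale.Agent.P252.PolyPSD

theorem entryI1_0 : ((List.finRange 5).all fun l =>
    zeroCheck (gap (SI1 0 l) (MI1 0 l) (wt1 0 + wt1 l))) = true := by decide +kernel

theorem entryI1_1 : ((List.finRange 5).all fun l =>
    zeroCheck (gap (SI1 1 l) (MI1 1 l) (wt1 1 + wt1 l))) = true := by decide +kernel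

theorem entryI1_2 : ((List.finRange 5).all fun l =>
    zeroCheck (gap (SI1 2 l) (MI1 2 l) (wt1 2 + wt1 l))) = true := by decide +kernel

theorem entryI1_3 : ((List.finRange 5).all fun l =>
    zeroCheck (gap (SI1 3 l) (MI1 3 l) (wt1 3 + wt1 l))) = true := by decide +kernel

theorem entryI1_4 : ((List.finRange 5).all fun l =>
    zeroCheck (gap (SI1 4 l) (MI1 4 l) (wt1 4 + wt1 l))) = true := by decide +kernel

end Vale.Agent.P252.General.Cert4
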