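import Vale.Agent.P252.Cert.ZeroCheck
import Vale.Agent.P252.Rigidity.General.Cert4.Struct
import Vale.Agent.P252.Rigidity.General.Cert4.Flat.MI2

/-! The stored block equals the structured one, checked at Kronecker points. -/

namespace Vale.Agent.P252.General.Cert4

open Vale.Agent.P100T.PosCheck Vale.Agent.P252.PolyPSD

theorem entryI2_0 : ((List.finRange 3).all fun l =>
    zeroCheck (gap (SI2 0 l) (MI2 0 l) (wt2 0 + wt2 l))) = true := by decide +kernel

theorem entryI2_1 : ((List.finRange 3).all fun l =>
    zeroCheck (gap (SI2 1 l) (MI2 1 l) (wt2 1 + wt2 l))) = true := by decide +kernel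

theorem entryI2_2 : ((List.finRange 3).all fun l =>
    zeroCheck (gap (SI2 2 l) (MI2 2 l) (wt2 2 + wt2 l))) = true := by decide +kernel

end Vale.Agent.P252.General.Cert4
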